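import Vale.Agent.P251EJ.DefsS

/-!
# P251EJ, row FIN: maps of spheres of positive stem are torsion
-/

open CategoryTheory MonoidalCategory Limits Pretriangulated Set Topology OnePoint

universe v u

noncomputable section

namespace Vale.Agent.P251EJ6

open Vale.Agent.P251 Vale.Agent.P251.T Vale.Agent.P251.G Vale.Agent.P251.G.LC
  Vale.Agent.P251.I Vale.Agent.P251EJ

variable {T : Type u} [Category.{v} T] [Preadditive T] [HasZeroObject T]
    [HasShift T ℤ] [∀ n : ℤ, (shiftFunctor T n).Additive] [Pretriangulated T]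
    [MonoidalCategory T] [SymmetricCategory T] [TensorTriangulated T] (F : SpaceFunctor T)

section
variable {X Y Z : Type} [TopologicalSpace X] [CompactSpace X] [T2Space X]
  [TopologicalSpace Y] [CompactSpace Y] [T2Space Y] [TopologicalSpace Z]
  [CompactSpace Z] [T2Space Z] (hX : FC (LC.of X)) (hY : FC (LC.of Y)) (hZ : FC (LC.of Z))

theorem sm_comp (f : C(X, Y)) (g : C(Y, Z)) :
    Sm F hX hY f ≫ Sm F hY hZ g = Sm F hX hZ (g.comp f) := by
  rw [Sm, Sm, Sm, ← F.S.map_comp]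
  congr 1
  exact ObjectProperty.hom_ext _ (LC.hom_ext fun _ => rfl)

theorem sm_toSph {n : ℕ} (f : C(X, Y)) (g : C(Y, Sp n)) :
    Sm F hX hY f ≫ F.S.map (toSph hY g) = F.S.map (toSph hX (g.comp f)) := by
  rw [Sm, ← F.S.map_comp]
  congr 1
  exact ObjectProperty.hom_ext _ (LC.hom_ext fun _ => rfl)

theorem sm_eq {f g : C(X, Y)} (h : f.Homotopic g) : Sm F hX hY f = Sm F hX hY g := by
  obtain ⟨H⟩ := h
  refine F.map_eq _ _ ⟨ofCompact (X := LC.of (X × unitInterval)) (Y := LC.of Y)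
    (fun z => H (z.2, z.1)) (by fun_prop), LC.hom_ext fun x => ?_, LC.hom_ext fun x => ?_⟩
  · exact congrArg OnePoint.some (H.apply_zero x)
  · exact congrArg OnePoint.some (H.apply_one x)

end

theorem finS : FinS F := by
  intro hcov hB hC hS hcell hN hP k n hn hk f
  obtain ⟨M, hM⟩ := hN k n hn hk (Hom.toMap f.hom) (Hom.map_infty f.hom)
  obtain ⟨Z, _, _, _, q, hq, hq'⟩ := hS (M + 1) (Sp n)
  obtain ⟨C, hCq, hCa⟩ := hcell hB hC n (M + 1) Z q hq hq'
  obtain ⟨hY, hZ, cov⟩ := hcov _ _ _ C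
  obtain ⟨h1, hK, plus⟩ := hP k
  obtain ⟨z, hz⟩ := hM Z q fun σ y => ((hq' y _).2 ⟨σ, rfl⟩).symm
  let pr : Fin (M + 1) → C(Fin (M + 1) → Sp n, Sp n) := fun j => ⟨fun y => y j, continuous_apply j⟩
  obtain ⟨m, b, hm, hb⟩ := cov.surj _ (∑ j, F.S.map (toSph hY (pr j))) fun σ => by
    rw [Preadditive.comp_sum, ← Equiv.sum_comp σ fun j => F.S.map (toSph hY (pr j))]
    refine Finset.sum_congr rfl fun j _ => ?_
    rw [sm_toSph]
    congr 2
    ext y
    exact congrFun (hCa σ y) j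
  refine ⟨m, hm, plus _ _ (Sm F h1 hZ (ContinuousMap.const _ z) ≫ b -
    m • ∑ _j : Fin M, F.S.map (toSph h1 (ContinuousMap.const _ (∞ : Sp n)))) ?_⟩
  have e1 := congrArg (Sm F hK hY ((inc0 M n).comp (Hom.toMap f.hom)) ≫ ·) hb
  simp only [] at e1
  rw [← Category.assoc, sm_comp, hCq, sm_eq F hK hZ hz, Preadditive.comp_zsmul,
    Preadditive.comp_sum, Fin.sum_univ_succ, smul_add] at e1
  rw [Preadditive.comp_sub, ← Category.assoc, sm_comp, Preadditive.comp_zsmul,
    Preadditive.comp_zsmul, Preadditive.comp_sum, eq_sub_iff_add_eq]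
  refine Eq.trans ?_ e1.symm
  congr 2
  · rw [sm_toSph, ← F.S.map_comp]
    congr 1
    exact ObjectProperty.hom_ext _ (LC.hom_ext fun _ => rfl)
  · refine Finset.sum_congr rfl fun j _ => ?_
    rw [sm_toSph, sm_toSph]
    congr 2

end Vale.Agent.P251EJ6
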