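import Vale.Agent.P251EJ.DefsA
import Mathlib.RingTheory.Flat.EquationalCriterion

/-!
# P251EJ, row LAZ: Lazard's theorem in countable graded form

A countable flat graded algebra is the colimit of a sequence of finite graded free modules.
-/

noncomputable section

namespace Vale.Agent.P251EJ6

open Vale.Agent.P251EJ DirectSum

variable {R A : Type} [CommRing R] [CommRing A] (𝓡 : ℤ → AddSubgroup R) [GradedRing 𝓡]
  (H : ℤ → AddSubgroup A) [GradedRing H] (lam : R →+* A)

theorem proj_mem (d : ℤ) (a : A) : GradedRing.proj H d a ∈ H d := (decompose H a d).2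

theorem proj_same {d : ℤ} {a : A} (h : a ∈ H d) : GradedRing.proj H d a = a :=
  decompose_of_mem_same H h

theorem proj_ne {d e : ℤ} {a : A} (h : a ∈ H e) (hd : e ≠ d) : GradedRing.proj H d a = 0 :=
  decompose_of_mem_ne H h hd

theorem proj_fin (a : A) : {d | GradedRing.proj H d a ≠ 0}.Finite := by
  classical
  refine (decompose H a).support.finite_toSet.subset fun d hd => ?_
  refine DFinsupp.mem_support_iff.2 fun h => hd ?_
  rw [GradedRing.proj_apply, h]; rfl

theorem sum_proj {J : Type} [Finite J] (y : J → A) :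
    ∃ S : Finset ℤ, ∀ j, ∑ e ∈ S, GradedRing.proj H e (y j) = y j := by
  classical
  have := Fintype.ofFinite J
  refine ⟨Finset.univ.biUnion fun j => (decompose H (y j)).support, fun j => ?_⟩
  refine Eq.trans (Finset.sum_subset (Finset.subset_biUnion_of_mem
    (fun j => (decompose H (y j)).support) (Finset.mem_univ j)) fun d _ hd => ?_).symm
    (sum_support_decompose H (y j))
  rw [GradedRing.proj_apply, DFinsupp.notMem_support_iff.1 hd]; rfl

theorem eq_zero_of_proj {a : A} (h : ∀ d, GradedRing.proj H d a = 0) : a = 0 := by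
  obtain ⟨S, hS⟩ := sum_proj H fun _ : Unit => a
  rw [← hS ()]
  exact Finset.sum_eq_zero fun d _ => h d

variable {lam}

theorem proj_mul (hl : ∀ d, ∀ r ∈ 𝓡 d, lam r ∈ H d) (d : ℤ) (r : R) {e : ℤ} {y : A}
    (hy : y ∈ H e) :
    GradedRing.proj H d (lam r * y) = lam (GradedRing.proj 𝓡 (d - e) r) * y := by
  induction r using Decomposition.inductionOn 𝓡 with
  | zero => simp
  | @homogeneous i m =>
    have h1 : lam m * y ∈ H (i + e) := SetLike.mul_mem_graded (hl _ _ m.2) hy
    by_cases h : i + e = d
    · subst h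
      rw [proj_same H h1, add_sub_cancel_right, proj_same 𝓡 m.2]
    · rw [proj_ne H h1 h, proj_ne 𝓡 m.2 fun h' => h (by omega), map_zero, zero_mul]
  | add m m' h h' => rw [map_add, add_mul, map_add, h, h', map_add, map_add, add_mul]

theorem proj_mul' (d : ℤ) (r : R) {e : ℤ} {y : R} (hy : y ∈ 𝓡 e) :
    GradedRing.proj 𝓡 d (r * y) = GradedRing.proj 𝓡 (d - e) r * y :=
  proj_mul 𝓡 𝓡 (lam := RingHom.id R) (fun _ _ h => h) d r hy

/-- the equational criterion, for finitely many relations -/
theorem flat_rel (hf : lam.Flat) {I : Type} [Fintype I] (g : I → A) (C : Set (I → R))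
    (hC : C.Finite) (h : ∀ c ∈ C, ∑ a, lam (c a) * g a = 0) :
    ∃ (k : ℕ) (N : I → Fin k → R) (y : Fin k → A), (∀ a, g a = ∑ j, lam (N a j) * y j) ∧
      ∀ c ∈ C, ∀ j, ∑ a, c a * N a j = 0 := by
  classical
  let := lam.toAlgebra
  have : Module.Flat R A := hf
  have : Module.Finite R (Submodule.span R C) := Module.Finite.span_of_finite R hC
  obtain ⟨k, u, y, h1, h2⟩ := Module.Flat.exists_factorization_of_comp_eq_zero_of_free
    (f := (Submodule.span R C).subtype) (x := Fintype.linearCombination R g) (by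
      refine LinearMap.ext fun z => ?_
      have : Submodule.span R C ≤ LinearMap.ker (Fintype.linearCombination R g) :=
        Submodule.span_le.2 fun c hc => h c hc
      exact this z.2)
  refine ⟨k, fun a j => u (Pi.single a 1) j, fun j => y (Finsupp.single j 1), fun a => ?_,
    fun c hc j => ?_⟩
  · have h3 := LinearMap.congr_fun h1 (Pi.single a 1)
    rw [Fintype.linearCombination_apply_single, one_smul, LinearMap.comp_apply] at h3
    rw [h3]
    conv_lhs => rw [← Finsupp.univ_sum_single (u (Pi.single a 1))]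
    rw [map_sum]
    refine Finset.sum_congr rfl fun j _ => ?_
    rw [← mul_one (u (Pi.single a 1) j), ← smul_eq_mul, ← Finsupp.smul_single, map_smul]
    rfl
  · have h3 : u c = 0 := LinearMap.congr_fun h2 ⟨c, Submodule.subset_span hc⟩
    have h4 : c = ∑ a, c a • (Pi.single a 1 : I → R) := by
      funext b
      simp [Pi.single_apply]
    rw [h4, map_sum] at h3
    have h5 := DFunLike.congr_fun h3 j
    simpa [Finsupp.finsetSum_apply] using h5

/-- a finite family of homogeneous elements -/
structure Stg (H : ℤ → AddSubgroup A) where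
  I : Type
  [fin : Fintype I]
  deg : I → ℤ
  g : I → A
  g_mem : ∀ a, g a ∈ H (deg a)

attribute [instance] Stg.fin

/-- one step: a relation is killed and a generator is added -/
theorem step (hl : ∀ d, ∀ r ∈ 𝓡 d, lam r ∈ H d) (hf : lam.Flat) (s : Stg H) (c : s.I → R)
    (z : ℤ × A) : ∃ (t : Stg H) (M : s.I → t.I → R),
      (∀ a b, M a b ∈ 𝓡 (s.deg a - t.deg b)) ∧ (∀ a, s.g a = ∑ b, lam (M a b) * t.g b) ∧
      (∑ a, lam (c a) * s.g a = 0 → ∀ b, ∑ a, c a * M a b = 0) ∧
      ∃ b, t.deg b = z.1 ∧ t.g b = GradedRing.proj H z.1 z.2 := by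
  classical
  let cc : ℤ → s.I → R := fun d a => GradedRing.proj 𝓡 (d - s.deg a) (c a)
  have hfin : (Set.range cc).Finite := by
    have h1 : {d | cc d ≠ 0}.Finite := by
      refine (Set.finite_iUnion fun a : s.I => (proj_fin 𝓡 (c a)).preimage
        (f := fun d => d - s.deg a) (sub_left_injective.injOn)).subset fun d hd => ?_
      obtain ⟨a, ha⟩ := Function.ne_iff.1 hd
      exact Set.mem_iUnion.2 ⟨a, ha⟩
    refine ((h1.image cc).insert 0).subset ?_
    rintro _ ⟨d, rfl⟩
    by_cases h : cc d = 0
    · exact Or.inl h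
    · exact Or.inr ⟨d, h, rfl⟩
  obtain ⟨k, N, y, h1, h2⟩ := flat_rel hf s.g
    {x ∈ Set.range cc | ∑ a, lam (x a) * s.g a = 0} (hfin.subset fun _ h => h.1) fun _ h => h.2
  obtain ⟨S, hS⟩ := sum_proj H y
  refine ⟨{ I := Option (Fin k × S)
            deg := fun b => b.elim z.1 fun b => b.2
            g := fun b => b.elim (GradedRing.proj H z.1 z.2) fun b => GradedRing.proj H b.2 (y b.1)
            g_mem := fun b => by cases b <;> exact proj_mem H _ _ },
    fun a b => b.elim 0 fun b => GradedRing.proj 𝓡 (s.deg a - b.2) (N a b.1), fun a b => ?_,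
    fun a => ?_, fun hc b => ?_, none, rfl, rfl⟩
  · cases b
    · exact zero_mem _
    · exact proj_mem 𝓡 _ _
  · rw [Fintype.sum_option, Fintype.sum_prod_type]
    simp only [Option.elim, map_zero, zero_mul, zero_add]
    rw [← proj_same H (s.g_mem a), h1 a, map_sum]
    refine Finset.sum_congr rfl fun j _ => ?_
    conv_lhs => rw [← hS j, Finset.mul_sum, map_sum]
    rw [← Finset.sum_coe_sort S]
    exact Finset.sum_congr rfl fun e _ => proj_mul 𝓡 H hl _ _ (proj_mem H _ _)
  · rcases b with _ | ⟨j, e⟩
    · simp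
    refine eq_zero_of_proj 𝓡 fun d => ?_
    have h3 : ∑ a, lam (cc (d + e) a) * s.g a = 0 := by
      have h4 := congrArg (GradedRing.proj H (d + e)) hc
      rw [map_sum, map_zero] at h4
      rw [← h4]
      exact Finset.sum_congr rfl fun a _ => (proj_mul 𝓡 H hl _ _ (s.g_mem a)).symm
    have h4 := congrArg (GradedRing.proj 𝓡 d) (h2 _ ⟨⟨d + e, rfl⟩, h3⟩ j)
    rw [map_sum, map_zero] at h4
    rw [map_sum, ← h4]
    refine Finset.sum_congr rfl fun a _ => ?_
    simp only [Option.elim]
    have e1 : d - (d + e - s.deg a) = s.deg a - e := by ring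
    have e2 : d - (s.deg a - e) = d + e - s.deg a := by ring
    rw [proj_mul' 𝓡 _ _ (proj_mem 𝓡 _ _), mul_comm (cc _ a), proj_mul' 𝓡 _ _ (proj_mem 𝓡 _ _),
      mul_comm, e1, e2]

/-- a stage with a table of pending vectors -/
structure Pen (R : Type) (H : ℤ → AddSubgroup A) where
  s : Stg H
  v : ℕ → ℕ → s.I → R

theorem lazard : Lazard := by
  intro R A _ _ _ _ 𝓡 _ H _ lam hl hf
  classical
  choose t M h1 h2 h3 h4 using step 𝓡 H hl hf
  have hen : ∀ s : Stg H, ∃ f : ℕ → s.I → R, Function.Surjective f := fun s =>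
    exists_surjective_nat _
  choose en hen using hen
  obtain ⟨u, hu⟩ := exists_surjective_nat (ℤ × A)
  let s0 : Stg H := { I := Empty, deg := fun a => a.elim, g := fun a => a.elim
                      g_mem := fun a => a.elim }
  let cur : ℕ → ∀ x : Pen R H, x.s.I → R := fun j x => x.v j.unpair.1 j.unpair.2
  let P : ℕ → Pen R H := fun n => Nat.rec ⟨s0, fun _ => en s0⟩ (fun j x =>
    ⟨t x.s (cur j x) (u j), fun i k => if i = j + 1 then en _ k else
      fun b => ∑ a, x.v i k a * M x.s (cur j x) (u j) a b⟩) n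
  have hv : ∀ i, (P i).v i = en _ := fun i => by
    cases i with
    | zero => rfl
    | succ i => funext k; exact if_pos rfl
  refine ⟨{ I := fun i => (P i).s.I
            deg := fun i => (P i).s.deg
            M := fun j => M (P j).s (cur j (P j)) (u j)
            M_hom := fun j => h1 _ _ _
            g := fun i => (P i).s.g
            g_mem := fun i => (P i).s.g_mem
            g_succ := fun j => h2 _ _ _
            exh := fun d x hx => ?_
            kill := fun i c hc h0 => ?_ }⟩
  · obtain ⟨j, hj⟩ := hu (d, x)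
    obtain ⟨b, hb1, hb2⟩ := h4 (P j).s (cur j (P j)) (u j)
    replace hb1 := hb1.trans (congrArg Prod.fst hj)
    replace hb2 := hb2.trans (congrArg (fun z : ℤ × A => GradedRing.proj H z.1 z.2) hj)
    refine ⟨j + 1, Pi.single b 1, fun a => ?_, ?_⟩
    · by_cases h : a = b
      · subst h
        rw [Pi.single_eq_same]
        have : d - (P (j + 1)).s.deg a = 0 := sub_eq_zero.2 hb1.symm
        rw [this]
        exact SetLike.one_mem_graded 𝓡
      · rw [Pi.single_eq_of_ne h]; exact zero_mem _
    · rw [Finset.sum_eq_single b (fun a _ h => by rw [Pi.single_eq_of_ne h, map_zero, zero_mul])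
        fun h => (h (Finset.mem_univ _)).elim, Pi.single_eq_same, map_one, one_mul]
      exact (hb2.trans (proj_same H hx)).symm
  · obtain ⟨k, hk⟩ := hen _ (c i)
    have key : ∀ j, i ≤ j → c j = (P j).v i k ∧ ∑ a, lam (c j a) * (P j).s.g a = 0 := by
      intro j hj
      induction j, hj using Nat.le_induction with
      | base => exact ⟨by rw [hv, hk], h0⟩
      | succ j hj ih =>
        refine ⟨funext fun b => ?_, ?_⟩
        · have : (P (j + 1)).v i k = fun b => ∑ a, (P j).v i k a *
              M (P j).s (cur j (P j)) (u j) a b := if_neg (by omega)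
          rw [this, hc j hj b, ih.1]
        · rw [← ih.2]
          simp only [hc j hj, map_sum, map_mul, Finset.sum_mul]
          rw [Finset.sum_comm]
          refine Finset.sum_congr rfl fun a _ => ?_
          rw [h2 (P j).s (cur j (P j)) (u j) a, Finset.mul_sum]
          exact Finset.sum_congr rfl fun b _ => mul_assoc _ _ _
    have hi : i ≤ Nat.pair i k := Nat.left_le_pair i k
    obtain ⟨k1, k2⟩ := key _ hi
    have k3 : cur (Nat.pair i k) (P (Nat.pair i k)) = c (Nat.pair i k) := by
      rw [k1]; simp only [cur, Nat.unpair_pair]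
    refine ⟨Nat.pair i k + 1, by omega, funext fun b => ?_⟩
    rw [hc _ hi b]
    have k4 := h3 (P (Nat.pair i k)).s (cur _ (P (Nat.pair i k))) (u (Nat.pair i k))
      (by rw [k3]; exact k2) b
    exact (Finset.sum_congr rfl fun a _ => congrArg (· * _) (congrFun k3.symm a)).trans k4

end Vale.Agent.P251EJ6
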